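import Vale.Agent.P141.H676.LoH
import Vale.Agent.P141.H677.Fam
import Vale.Agent.P141.H305.TopDefs

/-!
# The sum over the base points of the root potentials of the label matrices is the mass
-/

set_option linter.unusedSectionVars false

namespace Vale.Agent.P141.H676

open Finset Matrix
open Vale.Agent.P141.PL
open Vale.Agent.P141.PL.H315 (Tri A2 avg)
open Vale.Agent.P141.H677 (GT GT_trace)

noncomputable section

variable {ι : Type*} [Fintype ι] [DecidableEq ι]

/-- **hg for `G = GT u`, `g₀ = s`** -/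
theorem mass_GT {K : ℕ} {x : Pt} {s r P : ℝ} {U : Tri} {g : ℤ → ℤ → ℝ} {u v : ℤ → ℤ → ι → ℝ}
    (h : H305.Cls K x s r P U g u v) :
    ∑ x1 ∈ iv K (cx K x).1, (GT u x1 K (cx K x).2.1).trace ≤ 2 ^ K * s := by
  have h1 : ∀ x1 ∈ iv K (cx K x).1, (GT u x1 K (cx K x).2.1).trace
      ≤ ((2 : ℝ) ^ K)⁻¹ * ∑ x2 ∈ iv K (cx K x).2.1, U.1 (x1, x2) ^ 2 := fun x1 hx1 => by
    rw [GT_trace]
    exact mul_le_mul_of_nonneg_left (sum_le_sum fun x2 hx2 => h.u_le x1 hx1 x2 hx2)
      (by positivity)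
  refine (sum_le_sum h1).trans ?_
  have h2 : avg (iv K (cx K x).1 ×ˢ iv K (cx K x).2.1) (fun w => U.1 w ^ 2) ≤ s := h.U_u2
  unfold avg at h2
  rw [sum_product, card_product] at h2
  rw [← mul_sum]
  push_cast at h2
  rw [card_iv, card_iv] at h2
  push_cast at h2
  have h3 : (0 : ℝ) < 2 ^ K := by positivity
  rw [inv_mul_le_iff₀ h3]
  have h4 : (0 : ℝ) < 2 ^ K * 2 ^ K := by positivity
  rw [inv_mul_le_iff₀ h4] at h2
  linarith

end

end Vale.Agent.P141.H676
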