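import Vale.Agent.P141.H822.LPLight

/-!
# The crude lemma for the low levels with the mass of the change in the mean over the root

In `lo_path` the masses of the changes of the multiplier enter only through their sum over the
base points of the root.  With the sum in place of the supremum the constant of the quadratic bound
of `LP` is homogeneous of degree one in the mass.
-/

set_option linter.unusedSectionVars false

namespace Vale.Agent.P141.H676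

open Finset Matrix Vale.Agent.P075 Vale.Agent.P141.PL Vale.Agent.P141.H103 Vale.Agent.P141.H170
open Vale.Agent.P141.PL.H588 (Xg Xs hd Pl cd dl)
open Vale.Agent.P141.H736 (Agree Path sqQ sqb)
open Vale.Agent.P141.H958 (L2E pwr)
open Vale.Agent.P141.H433

noncomputable section

open scoped Classical

section path

variable {L : ℕ} {U : ℕ → ℤ → ℤ → Matrix (Ix L) (Ix L) ℝ} {B : ℝ}

theorem sum_ms_le_h {N : ℕ} {S T : ℤ} {G : ℝ}
    (hG : ∑ x ∈ iv N S, ∑ k ∈ range N, 2 ^ (k + 1) * ∑ j ∈ iv (N - (k + 1)) T, vd U k x j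
      ≤ 4 ^ N * G) :
    ∑ k ∈ range N, ms U N S T k ≤ 2 * 4 ^ N * G := by
  have h1 : ∑ k ∈ range N, ms U N S T k = 2 * ∑ x ∈ iv N S, ∑ k ∈ range N,
      2 ^ (k + 1) * ∑ j ∈ iv (N - (k + 1)) T, vd U k x j := by
    rw [sum_comm, mul_sum]
    exact sum_congr rfl fun k hk => ms_eq (mem_range.1 hk) S T
  rw [h1]
  linarith

theorem mass_nonneg {N : ℕ} {S T : ℤ} {G : ℝ}
    (hG : ∑ x ∈ iv N S, ∑ k ∈ range N, 2 ^ (k + 1) * ∑ j ∈ iv (N - (k + 1)) T, vd U k x j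
      ≤ 4 ^ N * G) : 0 ≤ G := by
  have h2 : 0 ≤ ∑ x ∈ iv N S, ∑ k ∈ range N, (2 : ℝ) ^ (k + 1) *
      ∑ j ∈ iv (N - (k + 1)) T, vd U k x j :=
    sum_nonneg fun _ _ => sum_nonneg fun _ _ => mul_nonneg (by positivity)
      (sum_nonneg fun _ _ => vd_nonneg ..)
  have h3 : (0 : ℝ) < 4 ^ N := by positivity
  exact le_of_mul_le_mul_left (by rw [mul_zero]; exact h2.trans hG) h3

/-- **The crude lemma for the low levels, for paths**; only the sum of the mass of the change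
over the whole root is used. -/
theorem lo_path_h {N : ℕ} {R S T : ℤ} {c : ℕ → ℤ} (hc : Pl c) (hU : ∀ k x n, Ct (U k x n))
    {Q Q' : ℕ → ℤ → ℤ → Prop} {F H : ℕ → ℤ → ℤ → ℝ} {D D' : ℝ}
    (eF : L2E (L + N) R S Q F D) (eH : L2E (L + N) T S Q' H D')
    (hF : ∀ k < N, ∀ n ∈ iv (N - k) R, ∀ y ∈ iv N S,
      (Xg (L + k) L (F (L + (k + 1))) n y).trace ≤ B ^ 2)
    (hH : ∀ k < N, ∀ n ∈ iv (N - k) T, ∀ y ∈ iv N S,
      (Xg (L + k) L (H (L + (k + 1))) n y).trace ≤ B ^ 2) {G : ℝ}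
    (hG0 : 0 ≤ G) (hm : ∑ k ∈ range N, ms U N S T k ≤ 2 * 4 ^ N * G) :
    ∑ k ∈ range N, GW N R S T (k + 1) (c (k + 1)) (mt U (F (L + (k + 1))) (H (L + (k + 1))) k)
      ≤ 10 ^ 4 * (((4 : ℝ) ^ L)⁻¹ * (D + D') + 4 ^ N * B ^ 2 * G) := by
  -- changes
  set cF : ℕ → ℝ := fun k => chq L N R S (Q (L + k)) (F (L + (k + 1))) k with hcF
  set cH : ℕ → ℝ := fun k => chq L N T S (Q' (L + k)) (H (L + (k + 1))) k with hcH
  set g : ℕ → ℤ → ℤ → ℤ → ℝ := fun k n n' m =>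
    if n ∈ iv (N - (k + 1)) R ∧ n' ∈ iv (N - (k + 1)) T ∧ m ∈ iv (N - (k + 1)) S then
      (1 / 2) * mt U (F (L + (k + 1))) (H (L + (k + 1))) k n n' m
        - er U (F (L + (k + 1))) (H (L + (k + 1))) B k n n' m
    else -(fm (U1 L) (F (L + (k + 1))) (k + 1) (k + 1) n m
        * fm U (H (L + (k + 1))) (k + 1) (k + 1) n' m).trace with hg
  have h := totalW (Nat.zero_le N) hc (P := fun k => fm (U1 L) (F (L + k)) k)
    (P' := fun k => fm (U1 L) (F (L + (k + 1))) k)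
    (Q := fun k => fm U (H (L + k)) k) (Q' := fun k => fm U (H (L + (k + 1))) k)
    (R := R) (S := S) (T := T) (g := g)
    (dE := fun k _ => dE (U1 L) (F (L + (k + 1))) B N R S k)
    (dF := fun k _ => dE U (H (L + (k + 1))) B N T S k)
    (x := fun k => 73 * (cF k + cH k))
    (fun k _ _ => fm_out N k) (fun k _ _ => fm_out N k) (fun k _ _ => fm_out N k)
    (fun k _ _ => fm_out N k) (fun k a n m => fm_symm k a n m) (fun k a n m => fm_symm k a n m)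
    (fun k a n m => fm_symm k a n m) (fun k a n m => fm_symm k a n m)
    (fun k _ hk n n' m => by
      simp only [hg]
      split_ifs with hin
      · refine mid_pt hU (fun j hj y hy => ?_) (fun j hj y hy => ?_)
        · exact hF k hk j (iv_trans (by omega) hin.1 hj) y (iv_trans (by omega) hin.2.2 hy)
        · exact hH k hk j (iv_trans (by omega) hin.2.1 hj) y (iv_trans (by omega) hin.2.2 hy)
      · rw [add_neg_cancel]
        have p1 := trace_mul_nonneg (fm_psd (U := U1 L) (F := F (L + (k + 1))) k (k + 1) n (2 * m))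
          (fm_psd (U := U) (F := H (L + (k + 1))) k (k + 1) n' (2 * m))
        have p2 := trace_mul_nonneg
          (fm_psd (U := U1 L) (F := F (L + (k + 1))) k (k + 1) n (2 * m + 1))
          (fm_psd (U := U) (F := H (L + (k + 1))) k (k + 1) n' (2 * m + 1))
        linarith)
    (fun k _ h2 a h3 h4 => own_step U1_ct (fun n hn y hy => hF k h2 n hn y hy) h2 h3 h4)
    (fun k _ h2 a h3 h4 => own_step hU (fun n hn y hy => hH k h2 n hn y hy) h2 h3 h4)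
    (fun k _ hk => by
      have a1 : Agree (L + N) R S (L + k) (Q (L + k)) (F (L + (k + 1))) (F (L + k)) :=
        eF.path (L + k) (by omega)
      have a2 : Agree (L + N) T S (L + k) (Q' (L + k)) (H (L + (k + 1))) (H (L + k)) :=
        eH.path (L + k) (by omega)
      have w1 := MW_change (U := U) (U' := U1 L) U1_ct hU a1 a2 (c k)
      have w2 := WW_change (U := U1 L) U1_ct hk.le a1
      have w3 := WW_change (U := U) hU hk.le a2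
      simp only [hcF, hcH]
      linarith)
  -- the gains
  have hGW : ∀ k, GW N R S T (k + 1) (c (k + 1)) (g k)
      = (1 / 2) * GW N R S T (k + 1) (c (k + 1)) (mt U (F (L + (k + 1))) (H (L + (k + 1))) k)
        - GW N R S T (k + 1) (c (k + 1)) (er U (F (L + (k + 1))) (H (L + (k + 1))) B k) := by
    intro k
    unfold GW
    have e : ∀ m ∈ iv (N - (k + 1)) S, ∀ n ∈ iv (N - (k + 1)) R,
        (if c (k + 1) - m - n ∈ iv (N - (k + 1)) T then g k n (c (k + 1) - m - n) m else 0)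
        = (1 / 2) * (if c (k + 1) - m - n ∈ iv (N - (k + 1)) T then
          mt U (F (L + (k + 1))) (H (L + (k + 1))) k n (c (k + 1) - m - n) m else 0)
          - (if c (k + 1) - m - n ∈ iv (N - (k + 1)) T then
          er U (F (L + (k + 1))) (H (L + (k + 1))) B k n (c (k + 1) - m - n) m else 0) := by
      intro m hm n hn
      by_cases hc' : c (k + 1) - m - n ∈ iv (N - (k + 1)) T
      · rw [if_pos hc', if_pos hc', if_pos hc']
        simp only [hg]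
        rw [if_pos ⟨hn, hc', hm⟩]
      · rw [if_neg hc', if_neg hc', if_neg hc']
        ring
    rw [sum_congr rfl fun m hm => sum_congr rfl fun n hn => e m hm n hn]
    simp only [sum_sub_distrib, ← mul_sum]
    ring
  rw [Nat.Ico_zero_eq_range] at h
  simp only [hGW, sum_sub_distrib, ← mul_sum] at h
  have hWW : ∀ (k : ℕ) (t : ℝ), 0 ≤ t → WW N (k + 1) (fun _ => t) ≤ 4 * t := fun k t ht =>
    WW_le (e := fun _ => t) ht fun _ _ _ => le_rfl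
  have hdef : ∑ k ∈ range N, (WW N (k + 1) (fun _ => dE (U1 L) (F (L + (k + 1))) B N R S k)
      + WW N (k + 1) (fun _ => dE U (H (L + (k + 1))) B N T S k))
      ≤ 4 * ∑ k ∈ range N, dE (U1 L) (F (L + (k + 1))) B N R S k
        + 4 * ∑ k ∈ range N, dE U (H (L + (k + 1))) B N T S k := by
    rw [mul_sum, mul_sum, ← sum_add_distrib]
    exact sum_le_sum fun k _ => add_le_add (hWW k _ (dE_nonneg ..)) (hWW k _ (dE_nonneg ..))
  have h0 : ∑ k ∈ range N, ms (U1 L) N S R k ≤ 2 * 4 ^ N * (0 : ℝ) :=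
    sum_ms_le fun x _ => by simp only [U1_vd, sum_const_zero, mul_zero, le_refl]
  have d1 : ∑ k ∈ range N, dE (U1 L) (F (L + (k + 1))) B N R S k
      ≤ 28 * ∑ k ∈ range N, st L N R S (F (L + (k + 1))) k
        + (5 / 2) * B ^ 2 * ∑ k ∈ range N, ms (U1 L) N S R k := by
    rw [mul_sum, mul_sum, ← sum_add_distrib]
    exact sum_le_sum fun k _ => dE_le N R S k
  have d2 : ∑ k ∈ range N, dE U (H (L + (k + 1))) B N T S k
      ≤ 28 * ∑ k ∈ range N, st L N T S (H (L + (k + 1))) k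
        + (5 / 2) * B ^ 2 * ∑ k ∈ range N, ms U N S T k := by
    rw [mul_sum, mul_sum, ← sum_add_distrib]
    exact sum_le_sum fun k _ => dE_le N T S k
  have her : ∑ k ∈ range N, GW N R S T (k + 1) (c (k + 1))
      (er U (F (L + (k + 1))) (H (L + (k + 1))) B k)
      ≤ 14 * ∑ k ∈ range N, st L N R S (F (L + (k + 1))) k
        + 14 * ∑ k ∈ range N, st L N T S (H (L + (k + 1))) k
        + B ^ 2 * ∑ k ∈ range N, ms U N S T k := by
    rw [mul_sum, mul_sum, mul_sum, ← sum_add_distrib, ← sum_add_distrib]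
    exact sum_le_sum fun k _ => GW_er_le R S T (c (k + 1))
  have s1 := sum_st_path (L := L) le_rfl (N := N) eF.path
  have s2 := sum_st_path (L := L) le_rfl (N := N) eH.path
  have n1 := ee_nonneg (L := L) (F := F (L + N)) N R S N
  have n2 := ee_nonneg (L := L) (F := H (L + N)) N T S N
  have p1 := path_energy eF
  have p2 := path_energy eH
  have w1 := EW_start (U := U1 L) U1_ct N R S (F (L + 0))
  have w2 := EW_start (U := U) hU N T S (H (L + 0))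
  have c1 : 0 ≤ ∑ k ∈ range N, cF k := sum_nonneg fun k _ => chq_nonneg ..
  have c2 : 0 ≤ ∑ k ∈ range N, cH k := sum_nonneg fun k _ => chq_nonneg ..
  have z1 := ee_nonneg (L := L) (F := F (L + 0)) N R S 0
  have z2 := ee_nonneg (L := L) (F := H (L + 0)) N T S 0
  have mB := mul_le_mul_of_nonneg_left hm (sq_nonneg B)
  have mB0 := mul_le_mul_of_nonneg_left h0 (sq_nonneg B)
  have z : 0 ≤ 4 ^ N * B ^ 2 * G := mul_nonneg (by positivity) hG0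
  have hx : ∑ k ∈ range N, (cF k + cH k) = ∑ k ∈ range N, cF k + ∑ k ∈ range N, cH k :=
    sum_add_distrib
  have i1 : ∑ k ∈ range N, chq L N R S (Q (L + k)) (F (L + (k + 1))) k = ∑ k ∈ range N, cF k :=
    rfl
  have i2 : ∑ k ∈ range N, chq L N T S (Q' (L + k)) (H (L + (k + 1))) k = ∑ k ∈ range N, cH k :=
    rfl
  have q1 : 5 / 2 * B ^ 2 * ∑ k ∈ range N, ms (U1 L) N S R k
      = 5 / 2 * (B ^ 2 * ∑ k ∈ range N, ms (U1 L) N S R k) := by ring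
  have q2 : 5 / 2 * B ^ 2 * ∑ k ∈ range N, ms U N S T k
      = 5 / 2 * (B ^ 2 * ∑ k ∈ range N, ms U N S T k) := by ring
  have q3 : B ^ 2 * (2 * 4 ^ N * G) = 2 * (4 ^ N * B ^ 2 * G) := by ring
  have q4 : B ^ 2 * (2 * 4 ^ N * 0) = 0 := by ring
  rw [i1] at s1 p1
  rw [i2] at s2 p2
  rw [hx] at h
  rw [q1] at d1
  rw [q2] at d2
  rw [q3] at mB
  rw [q4] at mB0
  rw [mul_add ((4 : ℝ) ^ L)⁻¹]
  linarith


end path

end

end Vale.Agent.P141.H676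

namespace Vale.Agent.P141.H676

open Finset Matrix Vale.Agent.P075 Vale.Agent.P141.PL Vale.Agent.P141.PL.H804
open Vale.Agent.P141.H958 Vale.Agent.P141.H103 Vale.Agent.P141.H609 Vale.Agent.P141.H433
open Vale.Agent.P141.H338 Vale.Agent.P141.H822
open Vale.Agent.P141.PL.H588 (Xg hd Pl)

noncomputable section

section lp

variable {L N : ℕ} {R : Pt} {c : ℕ → ℤ} {B C : ℕ → ℤ → ℤ → ℝ} {cB cC : ℝ}
  {s : ℕ → Finset Pt} {S : (k : ℕ) → Pt → Matrix (Ix k) (Ix k) ℝ}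
  {U : ℕ → ℤ → ℤ → Matrix (Ix L) (Ix L) ℝ} {QB QC : ℕ → ℤ → ℤ → Prop}

/-- **The crude lemma in the letters of `LP`.** -/
theorem lo_LP_h (hc : Pl c) (hB : 0 < cB) (hC : 0 < cC) (hs0 : ∀ k ≤ L, s k = ∅)
    (hs : ∀ k ∈ Icc 1 (L + N), s k ⊆ bx3 (L + N) R k (c k))
    (capB : ∀ k ∈ Icc 1 (L + N), ∀ m ∈ s k, Cap k m.2.1 m.2.2 cB (B k))
    (capC : ∀ k ∈ Icc 1 (L + N), ∀ m ∈ s k, Cap k m.1 m.2.2 cC (C k))
    (hU : ∀ k x n, Ct (U k x n))
    (hSU : ∀ k < N, ∀ m ∈ s (L + (k + 1)), S (L + (k + 1)) m = DU U (k + 1) (k + 1) m.2.1 m.2.2)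
    {DB DC : ℝ} (eB : L2E (L + N) R.2.1 R.2.2 QB B DB) (eC : L2E (L + N) R.1 R.2.2 QC C DC)
    {β G : ℝ}
    (gB : ∀ k < N, ∀ n ∈ iv (N - k) R.2.1, ∀ y ∈ iv N R.2.2,
      (Xg (L + k) L (B (L + (k + 1))) n y).trace ≤ β ^ 2)
    (gC : ∀ k < N, ∀ n ∈ iv (N - k) R.1, ∀ y ∈ iv N R.2.2,
      (Xg (L + k) L (C (L + (k + 1))) n y).trace ≤ β ^ 2)
    (hG : ∑ x ∈ iv N R.2.2, ∑ k ∈ range N, 2 ^ (k + 1) * ∑ j ∈ iv (N - (k + 1)) R.2.1, vd U k x j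
      ≤ 4 ^ N * G) (b e : ℕ) :
    LP (L + N) s cB cC B C S b e ≤ (16 * 10 ^ 4 * (DB + DC + 4 ^ (L + N) * β ^ 2 * G)) *
      max (cB / 2 ^ (b - 1)) (cC / 2 ^ (e - 1)) ^ 2 := by
  set σ := max (cB / 2 ^ (b - 1)) (cC / 2 ^ (e - 1)) with hσ
  have σ0 : 0 < σ := lt_of_lt_of_le (by positivity : 0 < cB / 2 ^ (b - 1)) (le_max_left _ _)
  have h1 := LP_le_GW (c := fun j => c (L + j)) hB hC hs0
    (fun k hk => hs (L + (k + 1)) (mem_Icc.2 ⟨by omega, by omega⟩)) capB capC hSU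
    (le_max_left _ _ : cB / 2 ^ (b - 1) ≤ σ) (le_max_right _ _ : cC / 2 ^ (e - 1) ≤ σ)
  have wz : ∀ {F : ℕ → ℤ → ℤ → ℝ}, F 0 = 0 → wp (σ ^ 2)⁻¹ F 0 = 0 := fun h => wp_zero _ h
  have w0 : (0 : ℝ) ≤ (σ ^ 2)⁻¹ := by positivity
  have h2 := lo_path_h (L := L) (N := N) (B := β / σ) (Pl_shift hc L) hU
    (F := wp (σ ^ 2)⁻¹ C) (H := wp (σ ^ 2)⁻¹ B) (D := (σ ^ 2)⁻¹ * DC) (D' := (σ ^ 2)⁻¹ * DB)
    ⟨path_wp (σ ^ 2)⁻¹ eC.path, wz eC.zero, by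
      rw [pwr_wp w0]; exact mul_le_mul_of_nonneg_left eC.own w0⟩
    ⟨path_wp (σ ^ 2)⁻¹ eB.path, wz eB.zero, by
      rw [pwr_wp w0]; exact mul_le_mul_of_nonneg_left eB.own w0⟩
    (fun k hk n hn y hy => by
      change (Xg (L + k) L (scl σ (C (L + (k + 1)))) n y).trace ≤ _
      rw [trace_scl, div_pow, div_eq_inv_mul]
      exact mul_le_mul_of_nonneg_left (gC k hk n hn y hy) w0)
    (fun k hk n hn y hy => by
      change (Xg (L + k) L (scl σ (B (L + (k + 1)))) n y).trace ≤ _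
      rw [trace_scl, div_pow, div_eq_inv_mul]
      exact mul_le_mul_of_nonneg_left (gB k hk n hn y hy) w0) (mass_nonneg hG) (sum_ms_le_h hG)
  refine h1.trans ?_
  have h3 : ∑ k ∈ range N, GW N R.1 R.2.2 R.2.1 (k + 1) (c (L + (k + 1)))
        (H433.mt U (scl σ (C (L + (k + 1)))) (scl σ (B (L + (k + 1)))) k) ≤
      10 ^ 4 * (((4 : ℝ) ^ L)⁻¹ * ((σ ^ 2)⁻¹ * DC + (σ ^ 2)⁻¹ * DB) + 4 ^ N * (β / σ) ^ 2 * G) := h2
  refine (mul_le_mul_of_nonneg_left (mul_le_mul_of_nonneg_left h3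
    (by positivity : (0 : ℝ) ≤ 4 ^ L)) (by positivity)).trans (le_of_eq ?_)
  rw [pow_add, div_pow]
  field_simp
  ring


end lp

section lab

variable {κ : Type*} [Fintype κ] [DecidableEq κ] {L N : ℕ} {R : Pt} {c : ℕ → ℤ}
  {B C : ℕ → ℤ → ℤ → ℤ → ℝ} {cB cC : ℝ} {s : ℕ → Finset Pt} {el : κ → ℤ}
  {V : ℕ → ℤ → ℤ → Matrix κ κ ℝ} {QB QC : ℕ → ℤ → ℤ → Prop}

/-- **(LP2) in the letters of the labels.** -/
theorem lo_LP_lab_h (he : Function.Injective el) (hm : ∀ i, el i ∈ lbs L) (hc : Pl c) (hB : 0 < cB)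
    (hC : 0 < cC) (hs : ∀ k ∈ Icc 1 N, s k ⊆ bx3 N R k (c k))
    (capB : ∀ k ∈ Icc 1 N, ∀ m ∈ s k, CapR L k m.2.1 m.2.2 cB (B k))
    (capC : ∀ k ∈ Icc 1 N, ∀ m ∈ s k, CapR L k m.1 m.2.2 cC (C k))
    (hV : ∀ k x n, Ct (V k x n)) (B0 : B 0 = 0) (C0 : C 0 = 0)
    (pB : ∀ l ∈ lbs L, H736.Path N R.2.1 R.2.2 QB (fun k => B k l))
    (pC : ∀ l ∈ lbs L, H736.Path N R.1 R.2.2 QC (fun k => C k l)) {DB DC : ℝ}
    (oB : ∑ l ∈ lbs L, pwr N R.2.1 R.2.2 QB (fun k => B k l) ≤ DB)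
    (oC : ∑ l ∈ lbs L, pwr N R.1 R.2.2 QC (fun k => C k l) ≤ DC) {β G : ℝ}
    (gB : ∀ k < N, ∀ n ∈ iv (N - k) R.2.1, ∀ y ∈ iv N R.2.2,
      ∑ x ∈ iv k n, ∑ l ∈ lbs L, B (k + 1) l x y ^ 2 ≤ 2 ^ k * β ^ 2)
    (gC : ∀ k < N, ∀ n ∈ iv (N - k) R.1, ∀ y ∈ iv N R.2.2,
      ∑ x ∈ iv k n, ∑ l ∈ lbs L, C (k + 1) l x y ^ 2 ≤ 2 ^ k * β ^ 2)
    (hG : ∑ x ∈ iv N R.2.2, ∑ k ∈ range N, 2 ^ (k + 1) * ∑ j ∈ iv (N - (k + 1)) R.2.1, vk V k x j
      ≤ 4 ^ N * G) (b e : ℕ) :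
    LP (N + L) (shs L s) cB cC (shF L fun k => encR L (B k)) (shF L fun k => encR L (C k))
        (SV L el V) b e ≤
      (16 * 10 ^ 4 * (4 ^ L * (DB + DC) + 4 ^ (N + L) * β ^ 2 * G)) *
        max (cB / 2 ^ (b - 1)) (cC / 2 ^ (e - 1)) ^ 2 := by
  have hh : ∀ {A : ℕ → ℤ → ℤ → ℤ → ℝ} {T : ℤ}, (∀ k < N, ∀ n ∈ iv (N - k) T, ∀ y ∈ iv N R.2.2,
      ∑ x ∈ iv k n, ∑ l ∈ lbs L, A (k + 1) l x y ^ 2 ≤ 2 ^ k * β ^ 2) →
      ∀ k < N, ∀ n ∈ iv (N - k) T, ∀ y ∈ iv N R.2.2,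
        (Xg (L + k) L ((shF L fun k => encR L (A k)) (L + (k + 1))) n y).trace ≤ β ^ 2 := by
    intro A T h k hk n hn y hy
    have e1 : (shF L fun k => encR L (A k)) (L + (k + 1)) = encR L (A (k + 1)) := by
      rw [Nat.add_comm L (k + 1)]
      exact shF_add L (fun k => encR L (A k)) (k + 1)
    rw [e1, H822.trace_encR]
    have h1 := h k hk n hn y hy
    have h2 : (0 : ℝ) < 2 ^ k := by positivity
    rw [inv_mul_le_iff₀ h2]
    exact h1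
  have hs' := shs_sub (L := L) (R := R) hs
  have cB' := cap_shF (N := N) (L := L) (G := fun k => encR L (B k)) (x := cB) (s := s)
    (p := fun m => m.2.1) (q := fun m => m.2.2) fun k hk m hm => cap_encR (capB k hk m hm)
  have cC' := cap_shF (N := N) (L := L) (G := fun k => encR L (C k)) (x := cC) (s := s)
    (p := fun m => m.1) (q := fun m => m.2.2) fun k hk m hm => cap_encR (capC k hk m hm)
  have lB := L2E_encR (L := L) B0 pB oB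
  have lC := L2E_encR (L := L) C0 pC oC
  rw [Nat.add_comm N L] at hs' cB' cC' lB lC
  rw [Nat.add_comm N L]
  have h := lo_LP_h (L := L) (N := N) (R := R) (S := SV L el V)
    (U := fun k x n => emb L el (V k x n)) (shc_pl (L := L) hc) hB hC
    (fun k hk => by
      unfold shs
      rw [if_neg (by omega)])
    hs' cB' cC' (fun k x n => emb_ct he hm (hV k x n)) (fun k _ m _ => SV_eq V (k + 1) m)
    lB lC (hh gB) (hh gC)
    (by
      simp only [vd_emb he hm]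
      exact hG) b e
  refine h.trans (le_of_eq ?_)
  ring

end lab

section light

variable {κ : Type*} [Fintype κ] [DecidableEq κ] {L N : ℕ} {R : Pt} {c : ℕ → ℤ}
  {B C : ℕ → ℤ → ℤ → ℤ → ℝ} {cB cC : ℝ} {s : ℕ → Finset Pt} {el : κ → ℤ}
  {QB QC : ℕ → ℤ → ℤ → Prop} {l : ℝ} {G K : ℤ → ℕ → ℤ → Matrix κ κ ℝ}

/-- the masses of the changes of the light multiplier over the root -/
theorem VL_mass_h (h : ∀ x, H420.Tr l N (G x) (K x)) (S T : ℤ) {g₀ : ℝ}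
    (hg : ∑ x ∈ iv N S, (G x N T).trace ≤ 2 ^ N * g₀) :
    ∑ x ∈ iv N S, ∑ k ∈ range N, (2 : ℝ) ^ (k + 1) * ∑ j ∈ iv (N - (k + 1)) T, vk (VL l K) k x j
      ≤ 4 ^ N * (2 * l⁻¹ * g₀) := by
  refine (sum_le_sum fun x _ => VL_mass h x T).trans ?_
  rw [← mul_sum, ← mul_sum]
  have h2 : (0 : ℝ) ≤ 2 ^ N * (2 * l⁻¹) :=
    mul_nonneg (by positivity) (mul_nonneg (by norm_num) (inv_nonneg.2 (h 0).l_pos.le))
  have h3 := mul_le_mul_of_nonneg_left hg h2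
  calc _ = 2 ^ N * (2 * l⁻¹) * ∑ x ∈ iv N S, (G x N T).trace := by ring
    _ ≤ _ := h3
    _ = _ := by
      rw [show (4 : ℝ) = 2 * 2 by norm_num, mul_pow]
      ring

/-- **(LP2) for the light multiplier**, one `x₀`. -/
theorem lo_LP_light_h (he : Function.Injective el) (hm : ∀ i, el i ∈ lbs L) (hc : Pl c)
    (hB : 0 < cB) (hC : 0 < cC) (hs : ∀ k ∈ Icc 1 N, s k ⊆ bx3 N R k (c k))
    (capB : ∀ k ∈ Icc 1 N, ∀ m ∈ s k, CapR L k m.2.1 m.2.2 cB (B k))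
    (capC : ∀ k ∈ Icc 1 N, ∀ m ∈ s k, CapR L k m.1 m.2.2 cC (C k))
    (h : ∀ x, H420.Tr l N (G x) (K x)) (B0 : B 0 = 0) (C0 : C 0 = 0)
    (pB : ∀ l ∈ lbs L, H736.Path N R.2.1 R.2.2 QB (fun k => B k l))
    (pC : ∀ l ∈ lbs L, H736.Path N R.1 R.2.2 QC (fun k => C k l)) {DB DC : ℝ}
    (oB : ∑ l ∈ lbs L, pwr N R.2.1 R.2.2 QB (fun k => B k l) ≤ DB)
    (oC : ∑ l ∈ lbs L, pwr N R.1 R.2.2 QC (fun k => C k l) ≤ DC) {β g₀ : ℝ}
    (gB : ∀ k < N, ∀ n ∈ iv (N - k) R.2.1, ∀ y ∈ iv N R.2.2,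
      ∑ x ∈ iv k n, ∑ l ∈ lbs L, B (k + 1) l x y ^ 2 ≤ 2 ^ k * β ^ 2)
    (gC : ∀ k < N, ∀ n ∈ iv (N - k) R.1, ∀ y ∈ iv N R.2.2,
      ∑ x ∈ iv k n, ∑ l ∈ lbs L, C (k + 1) l x y ^ 2 ≤ 2 ^ k * β ^ 2)
    (hg : ∑ x ∈ iv N R.2.2, (G x N R.2.1).trace ≤ 2 ^ N * g₀) (b e : ℕ) :
    LP (N + L) (shs L s) cB cC (shF L fun k => encR L (B k)) (shF L fun k => encR L (C k))
        (SV L el (VL l K)) b e ≤
      (16 * 10 ^ 4 * (4 ^ L * (DB + DC) + 4 ^ (N + L) * β ^ 2 * (2 * l⁻¹ * g₀))) *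
        max (cB / 2 ^ (b - 1)) (cC / 2 ^ (e - 1)) ^ 2 :=
  lo_LP_lab_h he hm hc hB hC hs capB capC (VL_ct h) B0 C0 pB pC oB oC gB gC
    (VL_mass_h h R.2.2 R.2.1 hg) b e

end light

section fam

variable {κ : Type*} [Fintype κ] [DecidableEq κ] {L N : ℕ} {R : Pt} {X : Finset ℤ}
  {c : ℤ → ℕ → ℤ} {B C : ℤ → ℕ → ℤ → ℤ → ℤ → ℝ} {cB cC : ℝ} {s : ℤ → ℕ → Finset Pt}
  {el : κ → ℤ} {QB QC : ℤ → ℕ → ℤ → ℤ → Prop} {l : ℝ} {G K : ℤ → ℕ → ℤ → Matrix κ κ ℝ}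

/-- **(LP2) for the light multiplier**, summed over `x₀`: the hypothesis `hκ` of `H609.tzX`. -/
theorem lo_LP_light_fam_h (he : Function.Injective el) (hm : ∀ i, el i ∈ lbs L)
    (hc : ∀ i ∈ X, Pl (c i)) (hB : 0 < cB) (hC : 0 < cC)
    (hs : ∀ i ∈ X, ∀ k ∈ Icc 1 N, s i k ⊆ bx3 N R k (c i k))
    (capB : ∀ i ∈ X, ∀ k ∈ Icc 1 N, ∀ m ∈ s i k, CapR L k m.2.1 m.2.2 cB (B i k))
    (capC : ∀ i ∈ X, ∀ k ∈ Icc 1 N, ∀ m ∈ s i k, CapR L k m.1 m.2.2 cC (C i k))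
    (h : ∀ x, H420.Tr l N (G x) (K x)) (B0 : ∀ i ∈ X, B i 0 = 0) (C0 : ∀ i ∈ X, C i 0 = 0)
    (pB : ∀ i ∈ X, ∀ l ∈ lbs L, H736.Path N R.2.1 R.2.2 (QB i) (fun k => B i k l))
    (pC : ∀ i ∈ X, ∀ l ∈ lbs L, H736.Path N R.1 R.2.2 (QC i) (fun k => C i k l)) {DB DC : ℝ}
    (oB : ∑ i ∈ X, ∑ l ∈ lbs L, pwr N R.2.1 R.2.2 (QB i) (fun k => B i k l) ≤ DB)
    (oC : ∑ i ∈ X, ∑ l ∈ lbs L, pwr N R.1 R.2.2 (QC i) (fun k => C i k l) ≤ DC) {β g₀ : ℝ}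
    (gB : ∀ i ∈ X, ∀ k < N, ∀ n ∈ iv (N - k) R.2.1, ∀ y ∈ iv N R.2.2,
      ∑ x ∈ iv k n, ∑ l ∈ lbs L, B i (k + 1) l x y ^ 2 ≤ 2 ^ k * β ^ 2)
    (gC : ∀ i ∈ X, ∀ k < N, ∀ n ∈ iv (N - k) R.1, ∀ y ∈ iv N R.2.2,
      ∑ x ∈ iv k n, ∑ l ∈ lbs L, C i (k + 1) l x y ^ 2 ≤ 2 ^ k * β ^ 2)
    (hg : ∑ x ∈ iv N R.2.2, (G x N R.2.1).trace ≤ 2 ^ N * g₀) (b e : ℕ) :
    ∑ i ∈ X, LP (N + L) (shs L (s i)) cB cC (shF L fun k => encR L (B i k))
        (shF L fun k => encR L (C i k)) (SV L el (VL l K)) b e ≤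
      (16 * 10 ^ 4 * (4 ^ L * (DB + DC) + X.card * (4 ^ (N + L) * β ^ 2 * (2 * l⁻¹ * g₀)))) *
        max (cB / 2 ^ (b - 1)) (cC / 2 ^ (e - 1)) ^ 2 := by
  have h1 : ∀ i ∈ X, LP (N + L) (shs L (s i)) cB cC (shF L fun k => encR L (B i k))
        (shF L fun k => encR L (C i k)) (SV L el (VL l K)) b e ≤
      (16 * 10 ^ 4 * (4 ^ L * ((∑ l ∈ lbs L, pwr N R.2.1 R.2.2 (QB i) (fun k => B i k l)) +
        ∑ l ∈ lbs L, pwr N R.1 R.2.2 (QC i) (fun k => C i k l)) +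
          4 ^ (N + L) * β ^ 2 * (2 * l⁻¹ * g₀))) *
        max (cB / 2 ^ (b - 1)) (cC / 2 ^ (e - 1)) ^ 2 := fun i hi =>
    lo_LP_light_h he hm (hc i hi) hB hC (hs i hi) (capB i hi) (capC i hi) h (B0 i hi) (C0 i hi)
      (pB i hi) (pC i hi) le_rfl le_rfl (gB i hi) (gC i hi) hg b e
  refine (sum_le_sum h1).trans ?_
  rw [← sum_mul, ← mul_sum, sum_add_distrib, ← mul_sum, sum_add_distrib, sum_const,
    nsmul_eq_mul]
  have hM : (0 : ℝ) ≤ max (cB / 2 ^ (b - 1)) (cC / 2 ^ (e - 1)) ^ 2 := sq_nonneg _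
  refine mul_le_mul_of_nonneg_right ?_ hM
  refine mul_le_mul_of_nonneg_left ?_ (by norm_num)
  refine add_le_add ?_ le_rfl
  exact mul_le_mul_of_nonneg_left (add_le_add oB oC) (by positivity)

end fam

end

end Vale.Agent.P141.H676
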