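import Vale.Agent.P141.H676.RowN
import Vale.Agent.P141.H676.LoH

/-!
# The quadratic bound of the pair sum `LP` at small levels, with the local row traces
-/

set_option linter.unusedSectionVars false

namespace Vale.Agent.P141.H676

open Finset Matrix Vale.Agent.P075 Vale.Agent.P141.PL Vale.Agent.P141.PL.H804
open Vale.Agent.P141.H958 Vale.Agent.P141.H103 Vale.Agent.P141.H609 Vale.Agent.P141.H433
open Vale.Agent.P141.H338 Vale.Agent.P141.H822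
open Vale.Agent.P141.PL.H588 (Xg hd Pl)

noncomputable section

/-- row trace -/
def rtr (L : ℕ) (F : ℤ → ℤ → ℝ) (a : ℕ) (n x : ℤ) : ℝ := (Xg (L + a) L F n x).trace

/-- the crude lemma for paths, with the local row traces -/
def PathW : Prop :=
  ∀ {L : ℕ} {U : ℕ → ℤ → ℤ → Matrix (Ix L) (Ix L) ℝ} {N : ℕ} {R S T : ℤ} {c : ℕ → ℤ}, Pl c →
    (∀ k x n, Ct (U k x n)) → ∀ {Q Q' : ℕ → ℤ → ℤ → Prop} {F H : ℕ → ℤ → ℤ → ℝ} {D D' : ℝ},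
    L2E (L + N) R S Q F D → L2E (L + N) T S Q' H D' →
    ∑ k ∈ range N, GW N R S T (k + 1) (c (k + 1)) (H433.mt U (F (L + (k + 1))) (H (L + (k + 1))) k)
      ≤ 10 ^ 4 * (((4 : ℝ) ^ L)⁻¹ * (D + D') +
        WFs N R S T c (fun k n x => rtr L (F (L + (k + 1))) (k + 1) n x)
          (fun k n x => rtr L (H (L + (k + 1))) (k + 1) n x) (vd U) +
        WHs N S T (fun k a n x => rtr L (H (L + (k + 1))) a n x) (vd U))

theorem rtr_nonneg (L : ℕ) (F : ℤ → ℤ → ℝ) (a : ℕ) (n x : ℤ) : 0 ≤ rtr L F a n x :=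
  (H588.Xg_psd ..).trace_nonneg

theorem rtr_scl (L : ℕ) (σ : ℝ) (F : ℤ → ℤ → ℝ) (a : ℕ) (n x : ℤ) :
    rtr L (scl σ F) a n x = (σ ^ 2)⁻¹ * rtr L F a n x := trace_scl ..

theorem WFs_smul (t : ℝ) (N : ℕ) (R S T : ℤ) (c : ℕ → ℤ) (f h v : ℕ → ℤ → ℤ → ℝ) :
    WFs N R S T c (fun k n x => t * f k n x) (fun k n x => t * h k n x) v =
      t * WFs N R S T c f h v := by
  rw [WFs_eq, WFs_eq, mul_sum]
  refine sum_congr rfl fun k _ => ?_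
  rw [mul_left_comm t]
  congr 1
  rw [mul_sum]
  refine sum_congr rfl fun x _ => ?_
  rw [mul_sum]
  refine sum_congr rfl fun j _ => ?_
  split_ifs
  · ring
  · rw [mul_zero]

theorem WHs_smul (t : ℝ) (N : ℕ) (S T : ℤ) (h : ℕ → ℕ → ℤ → ℤ → ℝ) (v : ℕ → ℤ → ℤ → ℝ) :
    WHs N S T (fun k a n x => t * h k a n x) v = t * WHs N S T h v := by
  unfold WHs
  rw [mul_sum]
  refine sum_congr rfl fun k _ => ?_
  rw [mul_sum]
  refine sum_congr rfl fun r _ => ?_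
  rw [mul_left_comm t, mul_left_comm t]
  congr 2
  rw [mul_sum]
  refine sum_congr rfl fun x _ => ?_
  rw [mul_sum]
  refine sum_congr rfl fun j _ => ?_
  ring

section lp

variable {L N : ℕ} {R : Pt} {c : ℕ → ℤ} {B C : ℕ → ℤ → ℤ → ℝ} {cB cC : ℝ}
  {s : ℕ → Finset Pt} {S : (k : ℕ) → Pt → Matrix (Ix k) (Ix k) ℝ}
  {U : ℕ → ℤ → ℤ → Matrix (Ix L) (Ix L) ℝ} {QB QC : ℕ → ℤ → ℤ → Prop}

/-- **The crude lemma in the letters of `LP`**, local row traces. -/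
theorem lo_LP_W (hW : PathW) (hc : Pl c) (hB : 0 < cB) (hC : 0 < cC) (hs0 : ∀ k ≤ L, s k = ∅)
    (hs : ∀ k ∈ Icc 1 (L + N), s k ⊆ bx3 (L + N) R k (c k))
    (capB : ∀ k ∈ Icc 1 (L + N), ∀ m ∈ s k, Cap k m.2.1 m.2.2 cB (B k))
    (capC : ∀ k ∈ Icc 1 (L + N), ∀ m ∈ s k, Cap k m.1 m.2.2 cC (C k))
    (hU : ∀ k x n, Ct (U k x n))
    (hSU : ∀ k < N, ∀ m ∈ s (L + (k + 1)), S (L + (k + 1)) m = DU U (k + 1) (k + 1) m.2.1 m.2.2)
    {DB DC : ℝ} (eB : L2E (L + N) R.2.1 R.2.2 QB B DB) (eC : L2E (L + N) R.1 R.2.2 QC C DC)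
    (b e : ℕ) :
    LP (L + N) s cB cC B C S b e ≤ (16 * 10 ^ 4 * (DB + DC + 4 ^ L *
      (WFs N R.1 R.2.2 R.2.1 (fun j => c (L + j))
          (fun k n x => rtr L (C (L + (k + 1))) (k + 1) n x)
          (fun k n x => rtr L (B (L + (k + 1))) (k + 1) n x) (vd U) +
        WHs N R.2.2 R.2.1 (fun k a n x => rtr L (B (L + (k + 1))) a n x) (vd U)))) *
      max (cB / 2 ^ (b - 1)) (cC / 2 ^ (e - 1)) ^ 2 := by
  set σ := max (cB / 2 ^ (b - 1)) (cC / 2 ^ (e - 1)) with hσ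
  have σ0 : 0 < σ := lt_of_lt_of_le (by positivity : 0 < cB / 2 ^ (b - 1)) (le_max_left _ _)
  have h1 := LP_le_GW (c := fun j => c (L + j)) hB hC hs0
    (fun k hk => hs (L + (k + 1)) (mem_Icc.2 ⟨by omega, by omega⟩)) capB capC hSU
    (le_max_left _ _ : cB / 2 ^ (b - 1) ≤ σ) (le_max_right _ _ : cC / 2 ^ (e - 1) ≤ σ)
  have wz : ∀ {F : ℕ → ℤ → ℤ → ℝ}, F 0 = 0 → wp (σ ^ 2)⁻¹ F 0 = 0 := fun h => wp_zero _ h
  have w0 : (0 : ℝ) ≤ (σ ^ 2)⁻¹ := by positivity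
  have h2 := hW (L := L) (N := N) (Pl_shift hc L) hU
    (F := wp (σ ^ 2)⁻¹ C) (H := wp (σ ^ 2)⁻¹ B) (D := (σ ^ 2)⁻¹ * DC) (D' := (σ ^ 2)⁻¹ * DB)
    ⟨path_wp (σ ^ 2)⁻¹ eC.path, wz eC.zero, by
      rw [pwr_wp w0]; exact mul_le_mul_of_nonneg_left eC.own w0⟩
    ⟨path_wp (σ ^ 2)⁻¹ eB.path, wz eB.zero, by
      rw [pwr_wp w0]; exact mul_le_mul_of_nonneg_left eB.own w0⟩
  have eF : ∀ (G : ℕ → ℤ → ℤ → ℝ) (k a : ℕ) (n x : ℤ),
      rtr L (wp (σ ^ 2)⁻¹ G (L + (k + 1))) a n x = (σ ^ 2)⁻¹ * rtr L (G (L + (k + 1))) a n x :=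
    fun G k a n x => rtr_scl L σ (G (L + (k + 1))) a n x
  simp only [eF] at h2
  rw [WFs_smul, WHs_smul] at h2
  refine h1.trans ?_
  set WF := WFs N R.1 R.2.2 R.2.1 (fun j => c (L + j))
          (fun k n x => rtr L (C (L + (k + 1))) (k + 1) n x)
          (fun k n x => rtr L (B (L + (k + 1))) (k + 1) n x) (vd U) with hWF
  set WH := WHs N R.2.2 R.2.1 (fun k a n x => rtr L (B (L + (k + 1))) a n x) (vd U) with hWH
  have h3 : ∑ k ∈ range N, GW N R.1 R.2.2 R.2.1 (k + 1) (c (L + (k + 1)))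
        (H433.mt U (scl σ (C (L + (k + 1)))) (scl σ (B (L + (k + 1)))) k) ≤
      10 ^ 4 * (((4 : ℝ) ^ L)⁻¹ * ((σ ^ 2)⁻¹ * DC + (σ ^ 2)⁻¹ * DB) + (σ ^ 2)⁻¹ * WF
        + (σ ^ 2)⁻¹ * WH) := h2
  refine (mul_le_mul_of_nonneg_left (mul_le_mul_of_nonneg_left h3
    (by positivity : (0 : ℝ) ≤ 4 ^ L)) (by positivity)).trans (le_of_eq ?_)
  field_simp
  ring

end lp

/-! ### labels -/

/-- row trace of a labelled function -/
def rl (L : ℕ) (A : ℤ → ℤ → ℤ → ℝ) (a : ℕ) (n y : ℤ) : ℝ :=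
  ((2 : ℝ) ^ a)⁻¹ * ∑ x ∈ iv a n, ∑ l ∈ lbs L, A l x y ^ 2

theorem rl_nonneg (L : ℕ) (A : ℤ → ℤ → ℤ → ℝ) (a : ℕ) (n y : ℤ) : 0 ≤ rl L A a n y :=
  mul_nonneg (by positivity) (sum_nonneg fun _ _ => sum_nonneg fun _ _ => sq_nonneg _)

section lab

variable {κ : Type*} [Fintype κ] [DecidableEq κ] {L N : ℕ} {R : Pt} {c : ℕ → ℤ}
  {B C : ℕ → ℤ → ℤ → ℤ → ℝ} {cB cC : ℝ} {s : ℕ → Finset Pt} {el : κ → ℤ}
  {V : ℕ → ℤ → ℤ → Matrix κ κ ℝ} {QB QC : ℕ → ℤ → ℤ → Prop}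

/-- **(LP2) in the letters of the labels**, local row traces. -/
theorem lo_LP_lab_W (hW : PathW) (he : Function.Injective el) (hm : ∀ i, el i ∈ lbs L) (hc : Pl c)
    (hB : 0 < cB) (hC : 0 < cC) (hs : ∀ k ∈ Icc 1 N, s k ⊆ bx3 N R k (c k))
    (capB : ∀ k ∈ Icc 1 N, ∀ m ∈ s k, CapR L k m.2.1 m.2.2 cB (B k))
    (capC : ∀ k ∈ Icc 1 N, ∀ m ∈ s k, CapR L k m.1 m.2.2 cC (C k))
    (hV : ∀ k x n, Ct (V k x n)) (B0 : B 0 = 0) (C0 : C 0 = 0)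
    (pB : ∀ l ∈ lbs L, H736.Path N R.2.1 R.2.2 QB (fun k => B k l))
    (pC : ∀ l ∈ lbs L, H736.Path N R.1 R.2.2 QC (fun k => C k l)) {DB DC : ℝ}
    (oB : ∑ l ∈ lbs L, pwr N R.2.1 R.2.2 QB (fun k => B k l) ≤ DB)
    (oC : ∑ l ∈ lbs L, pwr N R.1 R.2.2 QC (fun k => C k l) ≤ DC) (b e : ℕ) :
    LP (N + L) (shs L s) cB cC (shF L fun k => encR L (B k)) (shF L fun k => encR L (C k))
        (SV L el V) b e ≤
      (16 * 10 ^ 4 * (4 ^ L * (DB + DC) + 4 ^ L *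
        (WFs N R.1 R.2.2 R.2.1 c (fun k n x => rl L (C (k + 1)) (k + 1) n x)
            (fun k n x => rl L (B (k + 1)) (k + 1) n x) (vk V) +
          WHs N R.2.2 R.2.1 (fun k a n x => rl L (B (k + 1)) a n x) (vk V)))) *
        max (cB / 2 ^ (b - 1)) (cC / 2 ^ (e - 1)) ^ 2 := by
  have hh : ∀ (A : ℕ → ℤ → ℤ → ℤ → ℝ) (k a : ℕ) (n y : ℤ),
      rtr L ((shF L fun k => encR L (A k)) (L + (k + 1))) a n y = rl L (A (k + 1)) a n y := by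
    intro A k a n y
    have e1 : (shF L fun k => encR L (A k)) (L + (k + 1)) = encR L (A (k + 1)) := by
      rw [Nat.add_comm L (k + 1)]
      exact shF_add L (fun k => encR L (A k)) (k + 1)
    rw [e1]
    exact H822.trace_encR L a (A (k + 1)) n y
  have hs' := shs_sub (L := L) (R := R) hs
  have cB' := cap_shF (N := N) (L := L) (G := fun k => encR L (B k)) (x := cB) (s := s)
    (p := fun m => m.2.1) (q := fun m => m.2.2) fun k hk m hm => cap_encR (capB k hk m hm)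
  have cC' := cap_shF (N := N) (L := L) (G := fun k => encR L (C k)) (x := cC) (s := s)
    (p := fun m => m.1) (q := fun m => m.2.2) fun k hk m hm => cap_encR (capC k hk m hm)
  have lB := L2E_encR (L := L) B0 pB oB
  have lC := L2E_encR (L := L) C0 pC oC
  rw [Nat.add_comm N L] at hs' cB' cC' lB lC
  rw [Nat.add_comm N L]
  have h := lo_LP_W hW (L := L) (N := N) (R := R) (S := SV L el V)
    (U := fun k x n => emb L el (V k x n)) (shc_pl (L := L) hc) hB hC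
    (fun k hk => by
      unfold shs
      rw [if_neg (by omega)])
    hs' cB' cC' (fun k x n => emb_ct he hm (hV k x n)) (fun k _ m _ => SV_eq V (k + 1) m)
    lB lC b e
  simp only [hh] at h
  have hv : vd (fun k x n => emb L el (V k x n)) = vk V := by
    funext k x j
    exact vd_emb he hm V k x j
  have hcc : (fun j => shc L c (L + j)) = c := by
    funext j
    unfold shc
    rw [if_pos (by omega), Nat.add_sub_cancel_left]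
  rw [hv, hcc] at h
  refine h.trans (le_of_eq ?_)
  ring

end lab

/-! ### rows of a family -/

section rows

variable {L N : ℕ}

theorem rl_half (A : ℤ → ℤ → ℤ → ℝ) (a : ℕ) (n y : ℤ) :
    rl L A (a + 1) n y = (1 / 2) * (rl L A a (2 * n) y + rl L A a (2 * n + 1) y) := by
  unfold rl
  rw [sum_iv_halves, pow_succ, mul_inv]
  ring

theorem two_mem {q : ℕ} {T n : ℤ} (h : n ∈ iv q T) {ε : ℤ} (hε : ε = 0 ∨ ε = 1) :
    2 * n + ε ∈ iv (q + 1) T := by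
  rw [mem_iv] at h ⊢
  rw [Nat.add_comm q 1, ← ix_ix, ← h]
  congr 1
  unfold ix
  rcases hε with rfl | rfl <;> omega

/-- rows at every larger scale -/
theorem rl_fam {X : Finset ℤ} {A : ℤ → ℤ → ℤ → ℤ → ℝ} {T y : ℤ} {k : ℕ} {ρ : ℝ}
    (h : ∀ j ∈ iv (N - k) T, ∑ i ∈ X, ∑ x ∈ iv k j, ∑ l ∈ lbs L, A i l x y ^ 2 ≤ 2 ^ k * ρ)
    (p : ℕ) (hp : k + p ≤ N) :
    ∀ n ∈ iv (N - (k + p)) T, ∑ i ∈ X, rl L (A i) (k + p) n y ≤ ρ := by
  induction p with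
  | zero =>
    intro n hn
    have h1 := h n (by simpa using hn)
    unfold rl
    rw [← mul_sum, Nat.add_zero, inv_mul_le_iff₀ (by positivity)]
    exact h1
  | succ p ih =>
    intro n hn
    have e : N - (k + p) = N - (k + (p + 1)) + 1 := by omega
    have h0 := ih (by omega) (2 * n) (by
      rw [e]
      simpa using two_mem hn (Or.inl rfl))
    have h1 := ih (by omega) (2 * n + 1) (by
      rw [e]
      exact two_mem hn (Or.inr rfl))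
    have e1 : ∀ i, rl L (A i) (k + (p + 1)) n y
        = (1 / 2) * (rl L (A i) (k + p) (2 * n) y + rl L (A i) (k + p) (2 * n + 1) y) :=
      fun i => rl_half (A i) (k + p) n y
    simp only [e1]
    rw [← mul_sum, sum_add_distrib]
    linarith

/-- rows of the partner at the tied cell of scale `k + 1` -/
theorem rl_tie {X : Finset ℤ} {c : ℤ → ℕ → ℤ} {A : ℤ → ℤ → ℤ → ℤ → ℝ} {T y : ℤ} {k : ℕ} {ρ : ℝ}
    (hk : k < N) (hcx : ∀ k i j, ix k i = ix k j → c i k = c j k)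
    (h : ∀ τ : ℤ → ℤ, (∀ q, τ q ∈ iv (N - k) T) →
      ∑ i ∈ X, ∑ x ∈ iv k (τ (ix k i)), ∑ l ∈ lbs L, A i l x y ^ 2 ≤ 2 ^ k * ρ) (m j : ℤ) :
    ∑ i ∈ X, (if c i (k + 1) - m - j ∈ iv (N - (k + 1)) T then
      rl L (A i) (k + 1) (c i (k + 1) - m - j) y else 0) ≤ ρ := by
  classical
  have e : N - k = N - (k + 1) + 1 := by omega
  have r0 : (2 : ℤ) ^ (N - k) * T ∈ iv (N - k) T := by
    rw [mem_iv, ix]
    exact Int.mul_ediv_cancel_left _ (by positivity)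
  set τ : ℤ → ℤ → ℤ := fun ε q => if c (2 ^ k * q) (k + 1) - m - j ∈ iv (N - (k + 1)) T then
    2 * (c (2 ^ k * q) (k + 1) - m - j) + ε else 2 ^ (N - k) * T with hτ
  have hmem : ∀ ε : ℤ, ε = 0 ∨ ε = 1 → ∀ q, τ ε q ∈ iv (N - k) T := by
    intro ε hε q
    simp only [hτ]
    split_ifs with h1
    · rw [e]
      exact two_mem h1 hε
    · exact r0
  have h0 := h (τ 0) (hmem 0 (Or.inl rfl))
  have h1 := h (τ 1) (hmem 1 (Or.inr rfl))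
  have key : ∀ i ∈ X, (if c i (k + 1) - m - j ∈ iv (N - (k + 1)) T then
      rl L (A i) (k + 1) (c i (k + 1) - m - j) y else 0) ≤ ((2 : ℝ) ^ (k + 1))⁻¹ *
      (∑ x ∈ iv k (τ 0 (ix k i)), ∑ l ∈ lbs L, A i l x y ^ 2 +
        ∑ x ∈ iv k (τ 1 (ix k i)), ∑ l ∈ lbs L, A i l x y ^ 2) := by
    intro i _
    have hc : c (2 ^ k * ix k i) (k + 1) = c i (k + 1) := by
      refine hcx (k + 1) _ _ ?_
      rw [← ix_ix k 1, ← ix_ix k 1]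
      congr 1
      unfold ix
      exact Int.mul_ediv_cancel_left _ (by positivity)
    split_ifs with h2
    · simp only [hτ, hc]
      rw [if_pos h2, if_pos h2, add_zero]
      unfold rl
      rw [sum_iv_halves]
    · exact mul_nonneg (by positivity) (add_nonneg
        (sum_nonneg fun _ _ => sum_nonneg fun _ _ => sq_nonneg _)
        (sum_nonneg fun _ _ => sum_nonneg fun _ _ => sq_nonneg _))
  refine (sum_le_sum key).trans ?_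
  rw [← mul_sum, sum_add_distrib, inv_mul_le_iff₀ (by positivity), pow_succ]
  linarith

end rows

section fam

variable {κ : Type*} [Fintype κ] [DecidableEq κ] {L N : ℕ} {R : Pt} {X : Finset ℤ}
  {c : ℤ → ℕ → ℤ} {B C : ℤ → ℕ → ℤ → ℤ → ℤ → ℝ} {cB cC : ℝ} {s : ℤ → ℕ → Finset Pt}
  {el : κ → ℤ} {QB QC : ℤ → ℕ → ℤ → ℤ → Prop} {l : ℝ} {G K : ℤ → ℕ → ℤ → Matrix κ κ ℝ}
  {V : ℕ → ℤ → ℤ → Matrix κ κ ℝ}

theorem vk_nonneg (V : ℕ → ℤ → ℤ → Matrix κ κ ℝ) (k : ℕ) (x j : ℤ) : 0 ≤ vk V k x j := by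
  unfold vk
  exact add_nonneg (psd_mul_transpose _).trace_nonneg (Real.sqrt_nonneg _)

/-- **(LP2) for any multiplier**, summed over `x₀`: only the row sums of the family enter. -/
theorem lo_LP_fam_W (hW : PathW) (he : Function.Injective el) (hm : ∀ i, el i ∈ lbs L)
    (hc : ∀ i ∈ X, Pl (c i)) (hcx : ∀ k i j, ix k i = ix k j → c i k = c j k)
    (hB : 0 < cB) (hC : 0 < cC)
    (hs : ∀ i ∈ X, ∀ k ∈ Icc 1 N, s i k ⊆ bx3 N R k (c i k))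
    (capB : ∀ i ∈ X, ∀ k ∈ Icc 1 N, ∀ m ∈ s i k, CapR L k m.2.1 m.2.2 cB (B i k))
    (capC : ∀ i ∈ X, ∀ k ∈ Icc 1 N, ∀ m ∈ s i k, CapR L k m.1 m.2.2 cC (C i k))
    (hV : ∀ k x n, Ct (V k x n)) (B0 : ∀ i ∈ X, B i 0 = 0) (C0 : ∀ i ∈ X, C i 0 = 0)
    (pB : ∀ i ∈ X, ∀ l ∈ lbs L, H736.Path N R.2.1 R.2.2 (QB i) (fun k => B i k l))
    (pC : ∀ i ∈ X, ∀ l ∈ lbs L, H736.Path N R.1 R.2.2 (QC i) (fun k => C i k l)) {DB DC : ℝ}
    (oB : ∑ i ∈ X, ∑ l ∈ lbs L, pwr N R.2.1 R.2.2 (QB i) (fun k => B i k l) ≤ DB)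
    (oC : ∑ i ∈ X, ∑ l ∈ lbs L, pwr N R.1 R.2.2 (QC i) (fun k => C i k l) ≤ DC) {ρ g : ℝ}
    (hρ : 0 ≤ ρ)
    (rB : ∀ k < N, ∀ y ∈ iv N R.2.2, ∀ τ : ℤ → ℤ, (∀ q, τ q ∈ iv (N - k) R.2.1) →
      ∑ i ∈ X, ∑ x ∈ iv k (τ (ix k i)), ∑ l ∈ lbs L, B i (k + 1) l x y ^ 2 ≤ 2 ^ k * ρ)
    (rC : ∀ k < N, ∀ y ∈ iv N R.2.2, ∀ τ : ℤ → ℤ, (∀ q, τ q ∈ iv (N - k) R.1) →
      ∑ i ∈ X, ∑ x ∈ iv k (τ (ix k i)), ∑ l ∈ lbs L, C i (k + 1) l x y ^ 2 ≤ 2 ^ k * ρ)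
    (hG : ∑ x ∈ iv N R.2.2, ∑ k ∈ range N, (2 : ℝ) ^ (k + 1) *
      ∑ j ∈ iv (N - (k + 1)) R.2.1, vk V k x j ≤ 4 ^ N * g) (b e : ℕ) :
    ∑ i ∈ X, LP (N + L) (shs L (s i)) cB cC (shF L fun k => encR L (B i k))
        (shF L fun k => encR L (C i k)) (SV L el V) b e ≤
      (16 * 10 ^ 4 * (4 ^ L * (DB + DC) + 4 ^ L * (20 * ρ * (4 ^ N * g)))) *
        max (cB / 2 ^ (b - 1)) (cC / 2 ^ (e - 1)) ^ 2 := by
  have hv := vk_nonneg V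
  have hMs : Ms N R.2.2 R.2.1 (vk V) ≤ 4 ^ N * g := hG
  have hM0 : 0 ≤ Ms N R.2.2 R.2.1 (vk V) := sum_nonneg fun x _ => sum_nonneg fun k _ =>
    mul_nonneg (by positivity) (sum_nonneg fun j _ => hv k x j)
  have h1 : ∀ i ∈ X, LP (N + L) (shs L (s i)) cB cC (shF L fun k => encR L (B i k))
        (shF L fun k => encR L (C i k)) (SV L el V) b e ≤
      (16 * 10 ^ 4 * (4 ^ L * ((∑ l ∈ lbs L, pwr N R.2.1 R.2.2 (QB i) (fun k => B i k l)) +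
        ∑ l ∈ lbs L, pwr N R.1 R.2.2 (QC i) (fun k => C i k l)) + 4 ^ L *
        (WFs N R.1 R.2.2 R.2.1 (c i) (fun k n x => rl L (C i (k + 1)) (k + 1) n x)
            (fun k n x => rl L (B i (k + 1)) (k + 1) n x) (vk V) +
          WHs N R.2.2 R.2.1 (fun k a n x => rl L (B i (k + 1)) a n x) (vk V)))) *
        max (cB / 2 ^ (b - 1)) (cC / 2 ^ (e - 1)) ^ 2 := fun i hi =>
    lo_LP_lab_W hW he hm (hc i hi) hB hC (hs i hi) (capB i hi) (capC i hi) hV (B0 i hi) (C0 i hi)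
      (pB i hi) (pC i hi) le_rfl le_rfl b e
  have rB' : ∀ k < N, ∀ y ∈ iv N R.2.2, ∀ j ∈ iv (N - k) R.2.1,
      ∑ i ∈ X, ∑ x ∈ iv k j, ∑ l ∈ lbs L, B i (k + 1) l x y ^ 2 ≤ 2 ^ k * ρ :=
    fun k hk y hy j hj => rB k hk y hy (fun _ => j) fun _ => hj
  have w1 := WFs_sum (N := N) (R := R.1) (S := R.2.2) (T := R.2.1) (X := X) (c := c) (v := vk V)
    (ρ := ρ) (f := fun i k n x => rl L (C i (k + 1)) (k + 1) n x)
    (h := fun i k n x => rl L (B i (k + 1)) (k + 1) n x) hv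
    (fun i _ k n x => rl_nonneg ..)
    (fun k hk x hx j _ => rl_tie (A := fun i => C i (k + 1)) hk hcx (rC k hk x hx) (ix (k + 1) x) j)
    (fun k hk x hx j hj => rl_fam (A := fun i => B i (k + 1)) (rB' k hk x hx) 1 (by omega) j hj)
  have w2 := WHs_sum (N := N) (S := R.2.2) (T := R.2.1) (X := X) (v := vk V) (ρ := ρ)
    (h := fun i k a n x => rl L (B i (k + 1)) a n x) hρ hv
    (fun k hk r hr x hx n hn => by
      have h := rl_fam (A := fun i => B i (k + 1)) (rB' k hk x hx) (1 + r) (by omega) n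
        (by rwa [← Nat.add_assoc])
      rwa [← Nat.add_assoc] at h)
  refine (sum_le_sum h1).trans ?_
  rw [← sum_mul, ← mul_sum, sum_add_distrib, ← mul_sum, sum_add_distrib, ← mul_sum,
    sum_add_distrib]
  have hM : (0 : ℝ) ≤ max (cB / 2 ^ (b - 1)) (cC / 2 ^ (e - 1)) ^ 2 := sq_nonneg _
  refine mul_le_mul_of_nonneg_right ?_ hM
  refine mul_le_mul_of_nonneg_left ?_ (by norm_num)
  have h4 : (0 : ℝ) ≤ 4 ^ L := by positivity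
  refine add_le_add (mul_le_mul_of_nonneg_left (add_le_add oB oC) h4)
    (mul_le_mul_of_nonneg_left ?_ h4)
  have h5 : 20 * ρ * Ms N R.2.2 R.2.1 (vk V) ≤ 20 * ρ * (4 ^ N * g) :=
    mul_le_mul_of_nonneg_left hMs (by positivity)
  have h6 : 0 ≤ ρ * Ms N R.2.2 R.2.1 (vk V) := mul_nonneg hρ hM0
  linarith

/-- **(LP2) for the light multiplier**, summed over `x₀`: the hypothesis `hκ` of `H609.tzX`,
homogeneous in the mass. -/
theorem lo_LP_light_fam_W (hW : PathW) (he : Function.Injective el) (hm : ∀ i, el i ∈ lbs L)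
    (hc : ∀ i ∈ X, Pl (c i)) (hcx : ∀ k i j, ix k i = ix k j → c i k = c j k)
    (hB : 0 < cB) (hC : 0 < cC)
    (hs : ∀ i ∈ X, ∀ k ∈ Icc 1 N, s i k ⊆ bx3 N R k (c i k))
    (capB : ∀ i ∈ X, ∀ k ∈ Icc 1 N, ∀ m ∈ s i k, CapR L k m.2.1 m.2.2 cB (B i k))
    (capC : ∀ i ∈ X, ∀ k ∈ Icc 1 N, ∀ m ∈ s i k, CapR L k m.1 m.2.2 cC (C i k))
    (h : ∀ x, H420.Tr l N (G x) (K x)) (B0 : ∀ i ∈ X, B i 0 = 0) (C0 : ∀ i ∈ X, C i 0 = 0)
    (pB : ∀ i ∈ X, ∀ l ∈ lbs L, H736.Path N R.2.1 R.2.2 (QB i) (fun k => B i k l))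
    (pC : ∀ i ∈ X, ∀ l ∈ lbs L, H736.Path N R.1 R.2.2 (QC i) (fun k => C i k l)) {DB DC : ℝ}
    (oB : ∑ i ∈ X, ∑ l ∈ lbs L, pwr N R.2.1 R.2.2 (QB i) (fun k => B i k l) ≤ DB)
    (oC : ∑ i ∈ X, ∑ l ∈ lbs L, pwr N R.1 R.2.2 (QC i) (fun k => C i k l) ≤ DC) {ρ g₀ : ℝ}
    (hρ : 0 ≤ ρ)
    (rB : ∀ k < N, ∀ y ∈ iv N R.2.2, ∀ τ : ℤ → ℤ, (∀ q, τ q ∈ iv (N - k) R.2.1) →
      ∑ i ∈ X, ∑ x ∈ iv k (τ (ix k i)), ∑ l ∈ lbs L, B i (k + 1) l x y ^ 2 ≤ 2 ^ k * ρ)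
    (rC : ∀ k < N, ∀ y ∈ iv N R.2.2, ∀ τ : ℤ → ℤ, (∀ q, τ q ∈ iv (N - k) R.1) →
      ∑ i ∈ X, ∑ x ∈ iv k (τ (ix k i)), ∑ l ∈ lbs L, C i (k + 1) l x y ^ 2 ≤ 2 ^ k * ρ)
    (hg : ∑ x ∈ iv N R.2.2, (G x N R.2.1).trace ≤ 2 ^ N * g₀) (b e : ℕ) :
    ∑ i ∈ X, LP (N + L) (shs L (s i)) cB cC (shF L fun k => encR L (B i k))
        (shF L fun k => encR L (C i k)) (SV L el (VL l K)) b e ≤
      (16 * 10 ^ 4 * (4 ^ L * (DB + DC) + 4 ^ L * (20 * ρ * (4 ^ N * (2 * l⁻¹ * g₀))))) *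
        max (cB / 2 ^ (b - 1)) (cC / 2 ^ (e - 1)) ^ 2 :=
  lo_LP_fam_W hW he hm hc hcx hB hC hs capB capC (VL_ct h) B0 C0 pB pC oB oC hρ rB rC
    (VL_mass_h h R.2.2 R.2.1 hg) b e

end fam

end

end Vale.Agent.P141.H676
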