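import Vale.Agent.P141.H433.LoPath

/-!
# The two row numbers of the crude lemma, summed over a finite family

`WFs` (tied) and `WHs` (untied): row traces times the size of the change of the multiplier.  The
multiplier does not see the index of the family, so only the sums over the family of the row traces
enter.
-/

set_option linter.unusedSectionVars false

namespace Vale.Agent.P141.H676

open Finset Vale.Agent.P141.PL Vale.Agent.P141.H103 Vale.Agent.P141.H433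

noncomputable section

/-- the tied row number: `f` rows of the partner, `h` rows of the moving slot, both at scale
`k + 1`, `v` the size of the change -/
def WFs (N : ℕ) (R S T : ℤ) (c : ℕ → ℤ) (f h v : ℕ → ℤ → ℤ → ℝ) : ℝ :=
  ∑ k ∈ range N, GW N R S T (k + 1) (c (k + 1)) (fun n n' m =>
    ((2 : ℝ) ^ (k + 1))⁻¹ * ∑ x ∈ iv (k + 1) m, (f k n x + h k n' x) * v k x n')

/-- the untied row number: `h k a` rows of the moving slot of time `k + 1` at scale `a` -/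
def WHs (N : ℕ) (S T : ℤ) (h : ℕ → ℕ → ℤ → ℤ → ℝ) (v : ℕ → ℤ → ℤ → ℝ) : ℝ :=
  ∑ k ∈ range N, ∑ r ∈ range (N - (k + 1) + 1), (3 / 4 : ℝ) ^ r * (2 ^ (k + 1) *
    ∑ x ∈ iv N S, ∑ j ∈ iv (N - (k + 1)) T,
      (h k (k + 1) j x + h k (k + 1 + r) (ix r j) x) * v k x j)

/-- the mass of the change -/
def Ms (N : ℕ) (S T : ℤ) (v : ℕ → ℤ → ℤ → ℝ) : ℝ :=
  ∑ x ∈ iv N S, ∑ k ∈ range N, 2 ^ (k + 1) * ∑ j ∈ iv (N - (k + 1)) T, v k x j

theorem refl_eq (j : ℕ) (R T s : ℤ) (g : ℤ → ℝ) :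
    ∑ n ∈ iv j R, (if s - n ∈ iv j T then g (s - n) else 0) =
      ∑ n' ∈ iv j T, if s - n' ∈ iv j R then g n' else 0 := by
  rw [← sum_filter, ← sum_filter]
  refine sum_nbij' (fun n => s - n) (fun n => s - n) ?_ ?_ ?_ ?_ ?_
  · intro n hn
    rw [mem_filter] at hn ⊢
    exact ⟨hn.2, by rw [sub_sub_cancel]; exact hn.1⟩
  · intro n hn
    rw [mem_filter] at hn ⊢
    exact ⟨hn.2, by rw [sub_sub_cancel]; exact hn.1⟩
  · intro n _
    simp only [sub_sub_cancel]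
  · intro n _
    simp only [sub_sub_cancel]
  · intro n _
    rfl

theorem GW_refl (N : ℕ) (R S T : ℤ) (k : ℕ) (c : ℤ) (g : ℤ → ℤ → ℤ → ℝ) :
    GW N R S T k c g = (4 : ℝ) ^ k * ∑ m ∈ iv (N - k) S, ∑ n' ∈ iv (N - k) T,
      if c - m - n' ∈ iv (N - k) R then g (c - m - n') n' m else 0 := by
  unfold GW
  congr 1
  refine sum_congr rfl fun m _ => ?_
  have h := refl_eq (N - k) R T (c - m) (fun n' => g (c - m - n') n' m)
  simpa only [sub_sub_cancel] using h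

theorem nest (N k : ℕ) (hk : k ≤ N) (S : ℤ) (F : ℤ → ℤ → ℝ) :
    ∑ m ∈ iv (N - k) S, ∑ x ∈ iv k m, F m x = ∑ x ∈ iv N S, F (ix k x) x := by
  have h := sum_iv_nest (N - k) k S (fun x => F (ix k x) x)
  rw [show N - k + k = N by omega] at h
  rw [← h]
  refine sum_congr rfl fun m _ => sum_congr rfl fun x hx => ?_
  rw [mem_iv.1 hx]

section fam

variable {N : ℕ} {R S T : ℤ} {X : Finset ℤ} {c : ℤ → ℕ → ℤ} {v : ℕ → ℤ → ℤ → ℝ} {ρ : ℝ}

theorem WFs_eq (c : ℕ → ℤ) (f h : ℕ → ℤ → ℤ → ℝ) :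
    WFs N R S T c f h v = ∑ k ∈ range N, 2 ^ (k + 1) * ∑ x ∈ iv N S,
      ∑ j ∈ iv (N - (k + 1)) T, if c (k + 1) - ix (k + 1) x - j ∈ iv (N - (k + 1)) R then
        (f k (c (k + 1) - ix (k + 1) x - j) x + h k j x) * v k x j else 0 := by
  unfold WFs
  refine sum_congr rfl fun k hk => ?_
  have hk' : k < N := mem_range.1 hk
  rw [GW_refl]
  have e : ∀ m n' : ℤ, (if c (k + 1) - m - n' ∈ iv (N - (k + 1)) R then
      ((2 : ℝ) ^ (k + 1))⁻¹ * ∑ x ∈ iv (k + 1) m, (f k (c (k + 1) - m - n') x + h k n' x) *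
        v k x n' else 0) = ((2 : ℝ) ^ (k + 1))⁻¹ * ∑ x ∈ iv (k + 1) m,
      if c (k + 1) - m - n' ∈ iv (N - (k + 1)) R then
        (f k (c (k + 1) - m - n') x + h k n' x) * v k x n' else 0 := by
    intro m n'
    split_ifs
    · rfl
    · rw [sum_const_zero, mul_zero]
  simp only [e]
  have e2 : ∀ m : ℤ, ∑ n' ∈ iv (N - (k + 1)) T, ((2 : ℝ) ^ (k + 1))⁻¹ * ∑ x ∈ iv (k + 1) m,
      (if c (k + 1) - m - n' ∈ iv (N - (k + 1)) R then
        (f k (c (k + 1) - m - n') x + h k n' x) * v k x n' else 0) =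
      ((2 : ℝ) ^ (k + 1))⁻¹ * ∑ x ∈ iv (k + 1) m, ∑ n' ∈ iv (N - (k + 1)) T,
      (if c (k + 1) - m - n' ∈ iv (N - (k + 1)) R then
        (f k (c (k + 1) - m - n') x + h k n' x) * v k x n' else 0) := by
    intro m
    rw [← mul_sum, sum_comm]
  simp only [e2]
  rw [← mul_sum, nest N (k + 1) (by omega) S (fun m x => ∑ n' ∈ iv (N - (k + 1)) T,
      (if c (k + 1) - m - n' ∈ iv (N - (k + 1)) R then
        (f k (c (k + 1) - m - n') x + h k n' x) * v k x n' else 0)), ← mul_assoc]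
  congr 1
  have h4 : (4 : ℝ) ^ (k + 1) = 2 ^ (k + 1) * 2 ^ (k + 1) := by
    rw [← mul_pow]; norm_num
  rw [h4]
  field_simp

/-- **The tied number of a family.** -/
theorem WFs_sum {f h : ℤ → ℕ → ℤ → ℤ → ℝ} (hv : ∀ k x j, 0 ≤ v k x j)
    (h0 : ∀ i ∈ X, ∀ k n x, 0 ≤ h i k n x)
    (hf : ∀ k < N, ∀ x ∈ iv N S, ∀ j ∈ iv (N - (k + 1)) T, ∑ i ∈ X,
      (if c i (k + 1) - ix (k + 1) x - j ∈ iv (N - (k + 1)) R then
        f i k (c i (k + 1) - ix (k + 1) x - j) x else 0) ≤ ρ)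
    (hh : ∀ k < N, ∀ x ∈ iv N S, ∀ j ∈ iv (N - (k + 1)) T, ∑ i ∈ X, h i k j x ≤ ρ) :
    ∑ i ∈ X, WFs N R S T (c i) (f i) (h i) v ≤ 2 * ρ * Ms N S T v := by
  simp only [WFs_eq]
  rw [sum_comm]
  have e : 2 * ρ * Ms N S T v = ∑ k ∈ range N, 2 ^ (k + 1) * ∑ x ∈ iv N S,
      ∑ j ∈ iv (N - (k + 1)) T, 2 * ρ * v k x j := by
    unfold Ms
    rw [sum_comm, mul_sum]
    refine sum_congr rfl fun k _ => ?_
    rw [← mul_sum, mul_left_comm]
    congr 1
    rw [mul_sum]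
    exact sum_congr rfl fun x _ => mul_sum _ _ _
  rw [e]
  refine sum_le_sum fun k hk => ?_
  have hk' : k < N := mem_range.1 hk
  rw [← mul_sum]
  refine mul_le_mul_of_nonneg_left ?_ (by positivity)
  rw [sum_comm]
  refine sum_le_sum fun x hx => ?_
  rw [sum_comm]
  refine sum_le_sum fun j hj => ?_
  have h1 : ∀ i ∈ X, (if c i (k + 1) - ix (k + 1) x - j ∈ iv (N - (k + 1)) R then
      (f i k (c i (k + 1) - ix (k + 1) x - j) x + h i k j x) * v k x j else 0) ≤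
      ((if c i (k + 1) - ix (k + 1) x - j ∈ iv (N - (k + 1)) R then
        f i k (c i (k + 1) - ix (k + 1) x - j) x else 0) + h i k j x) * v k x j := by
    intro i hi
    split_ifs
    · exact le_rfl
    · rw [zero_add]
      exact mul_nonneg (h0 i hi k j x) (hv k x j)
  refine (sum_le_sum h1).trans ?_
  rw [← sum_mul, sum_add_distrib]
  refine mul_le_mul_of_nonneg_right ?_ (hv k x j)
  have := hf k hk' x hx j hj
  have := hh k hk' x hx j hj
  linarith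

/-- **The untied number of a family.** -/
theorem WHs_sum {h : ℤ → ℕ → ℕ → ℤ → ℤ → ℝ} (hρ : 0 ≤ ρ) (hv : ∀ k x j, 0 ≤ v k x j)
    (hh : ∀ k < N, ∀ r, k + 1 + r ≤ N → ∀ x ∈ iv N S, ∀ n ∈ iv (N - (k + 1 + r)) T,
      ∑ i ∈ X, h i k (k + 1 + r) n x ≤ ρ) :
    ∑ i ∈ X, WHs N S T (h i) v ≤ 8 * ρ * Ms N S T v := by
  unfold WHs
  rw [sum_comm]
  have e : 8 * ρ * Ms N S T v = ∑ k ∈ range N, 4 * (2 ^ (k + 1) * ∑ x ∈ iv N S,
      ∑ j ∈ iv (N - (k + 1)) T, 2 * ρ * v k x j) := by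
    unfold Ms
    rw [sum_comm, mul_sum]
    refine sum_congr rfl fun k _ => ?_
    rw [← mul_sum]
    simp only [← mul_sum]
    ring
  rw [e]
  refine sum_le_sum fun k hk => ?_
  have hk' : k < N := mem_range.1 hk
  set M : ℝ := 2 ^ (k + 1) * ∑ x ∈ iv N S, ∑ j ∈ iv (N - (k + 1)) T, 2 * ρ * v k x j with hM
  have hM0 : 0 ≤ M := mul_nonneg (by positivity) (sum_nonneg fun x _ => sum_nonneg fun j _ =>
    mul_nonneg (by positivity) (hv k x j))
  rw [sum_comm]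
  have h1 : ∀ r ∈ range (N - (k + 1) + 1), ∑ i ∈ X, (3 / 4 : ℝ) ^ r * (2 ^ (k + 1) *
      ∑ x ∈ iv N S, ∑ j ∈ iv (N - (k + 1)) T,
        (h i k (k + 1) j x + h i k (k + 1 + r) (ix r j) x) * v k x j) ≤ (3 / 4 : ℝ) ^ r * M := by
    intro r hr
    have hr' : k + 1 + r ≤ N := by
      have := mem_range.1 hr
      omega
    rw [← mul_sum]
    refine mul_le_mul_of_nonneg_left ?_ (by positivity)
    rw [← mul_sum, hM]
    refine mul_le_mul_of_nonneg_left ?_ (by positivity)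
    rw [sum_comm]
    refine sum_le_sum fun x hx => ?_
    rw [sum_comm]
    refine sum_le_sum fun j hj => ?_
    rw [← sum_mul, sum_add_distrib]
    refine mul_le_mul_of_nonneg_right ?_ (hv k x j)
    have a1 := hh k hk' 0 (by omega) x hx j (by simpa using hj)
    have a2 := hh k hk' r hr' x hx (ix r j) (by
      rw [mem_iv] at hj ⊢
      rw [ix_ix, ← hj]
      congr 1
      omega)
    simp only [add_zero] at a1
    linarith
  refine (sum_le_sum h1).trans ?_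
  rw [← sum_mul]
  exact mul_le_mul_of_nonneg_right (H736.geo_le _) hM0

end fam

end

end Vale.Agent.P141.H676
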